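import Crest.Agent.X212.Hat23.Lev

/-! The leaves RHO, FOLD, UP, DOWN, RED of layer S. -/

set_option autoImplicit false

noncomputable section

namespace Hat23

open Crest.Agent.X212 Bor5 Module Function Matrix Ob Filter
open Fam (Ch RBij)

theorem fr_split {V V' : Type*} [AddCommGroup V] [Module K V] [AddCommGroup V'] [Module K V']
    (f : V →ₗ[K] V') (S : Submodule K V) [FiniteDimensional K S] :
    finrank K S = finrank K (S.map f) + finrank K (S ⊓ LinearMap.ker f : Submodule K V) := by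
  have h1 := LinearMap.finrank_range_add_finrank_ker (f.domRestrict S)
  rw [LinearMap.range_domRestrict, LinearMap.ker_domRestrict,
    ← Submodule.finrank_map_subtype_eq S, Submodule.map_comap_subtype] at h1
  exact h1.symm

/-- RHO -/
theorem rho : RhoStmt := by
  intro L M U f g h t DL DM DU hf hg cL cM cU a b c ra rb rc
  have pL := L.pos
  have pU := U.pos
  have hP := t.hP
  obtain ⟨k1, h1⟩ := exists_dec DL
  obtain ⟨k2, h2⟩ := exists_dec DM
  obtain ⟨k3, h3⟩ := exists_dec DU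
  obtain ⟨k4, h4⟩ := exists_ne cM
  obtain ⟨k5, h5⟩ := exists_ne cU
  obtain ⟨k, ⟨⟨ea, eb⟩, ec⟩, hk⟩ :=
    (((ra.and rb).and rc).and (eventually_ge_atTop (k1 + k2 + k3 + k4 + k5))).exists
  have := fd_low DL k
  have := fd_low DM k
  have := fd_low DU k
  have d1 : ∀ y, f.tot y ∈ M.low DM k → y ∈ L.low DL k := fun y hy =>
    desc1 t.nf hf (by omega) cL (h1 k (by omega)) (fun j hj => h4 j (by omega)) trivial hy
  have e1 : L.low DL k ⊓ LinearMap.ker f.tot = LinearMap.range h.tot := by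
    rw [← t.ex3.linearMap_ker_eq]
    exact inf_eq_right.2 fun y hy => d1 y (by rw [LinearMap.mem_ker.1 hy]; exact zero_mem _)
  have e2 : M.low DM k ⊓ LinearMap.ker g.tot = (L.low DL k).map f.tot := by
    rw [t.ex1.linearMap_ker_eq]
    refine le_antisymm ?_ ?_
    · rintro _ ⟨hy, y, rfl⟩
      exact ⟨y, d1 y hy, rfl⟩
    · rintro _ ⟨y, hy, rfl⟩
      exact ⟨tot_low t.nf hf hy, y, rfl⟩
  have e3 : U.low DU k ⊓ LinearMap.ker h.tot = (M.low DM k).map g.tot := by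
    rw [t.ex2.linearMap_ker_eq]
    refine le_antisymm ?_ ?_
    · rintro _ ⟨hy, y, rfl⟩
      obtain ⟨x, -, hx⟩ := desc2 t hf hg cM cU le_top (h2 k (by omega))
        (fun j hj => h5 j (by omega)) trivial hy
      exact ⟨_, hx, by rw [map_sub, t.ex1.apply_apply_eq_zero, sub_zero]⟩
    · rintro _ ⟨y, hy, rfl⟩
      exact ⟨tot_low t.ng hg hy, y, rfl⟩
  have e4 : (U.low DU k).map h.tot = LinearMap.range h.tot := by
    refine le_antisymm LinearMap.map_le_range ?_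
    rintro _ ⟨z, rfl⟩
    obtain ⟨y, -, hy⟩ := desc3 t.ng hg (by omega) cU le_top (h3 k (by omega)) (z := z) trivial
    exact ⟨_, hy, by rw [map_sub, t.ex2.apply_apply_eq_zero, sub_zero]⟩
  have r1 := fr_split f.tot (L.low DL k)
  have r2 := fr_split g.tot (M.low DM k)
  have r3 := fr_split h.tot (U.low DU k)
  rw [e1] at r1
  rw [e2] at r2
  rw [e3, e4] at r3
  refine ⟨e4 ▸ inferInstance, ?_⟩
  rw [hP] at eb
  push_cast at eb
  have r1' := congrArg (Nat.cast : ℕ → ℤ) r1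
  have r2' := congrArg (Nat.cast : ℕ → ℤ) r2
  have r3' := congrArg (Nat.cast : ℕ → ℤ) r3
  push_cast at r1' r2' r3'
  linarith

theorem F_inj {A B : Ob} {f : Fam A B} (h : f.Neg) (hs : f.Sharp A.d B.d) {κ : ℤ} (hκ : Ch A B κ)
    (hl : |κ| < A.P + B.P) {z : A.H} (hz : z ∈ A.T) (hc : ∀ c x, c ≠ f.s κ → A.π c x z = 0)
    (h0 : f.F κ z = 0) : z = 0 := by
  refine eq_zero_of_π fun c x => ?_
  by_cases e : c = f.s κ
  · subst e
    rcases mem_span_iff.1 (mem_T.1 hz (f.s κ) x) with b | b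
    · exact b
    by_contra hn
    obtain ⟨n, rfl⟩ := (A.e_ne _ x).1 (b ▸ hn)
    have := f.π_F κ (A.d (f.s κ) + 2 * n) z
    rw [h0, map_zero, b, h.F_e hκ, add_right_comm, ← hs.eq hκ hl] at this
    exact e_add_ne _ n this.symm
  · exact hc c x e

/-- FOLD -/
theorem fold : FoldStmt := by
  intro L M U f g h t pure hf κ
  refine LinearMap.ext fun y => ?_
  by_contra hy
  obtain ⟨k, hk, hm⟩ := Set.exists_max_image _ (fun κ : ℤ => |κ|) (h.fin y) ⟨κ, hy⟩
  have pL : (0 : ℤ) < L.P := by exact_mod_cast L.pos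
  have pU : (0 : ℤ) < U.P := by exact_mod_cast U.pos
  have hP : (M.P : ℤ) = L.P + U.P := by exact_mod_cast t.hP
  have ch : Ch U L k := by_contra fun e => hk (by simp only; rw [t.ph.par k e]; rfl)
  obtain ⟨c, c1, c2, c3⟩ : ∃ c : ℤ, Odd c ∧ |k| < |k - 2 * c * U.P| ∧ |-k - c * L.P| ≤ L.P := by
    have a1 := Int.emod_add_mul_ediv |k| (2 * L.P)
    have a2 := Int.emod_nonneg |k| (show 2 * (L.P : ℤ) ≠ 0 by omega)
    have a3 := Int.emod_lt_of_pos |k| (show 0 < 2 * (L.P : ℤ) by omega)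
    have a4 : 0 ≤ |k| / (2 * L.P) := Int.ediv_nonneg (abs_nonneg k) (by omega)
    generalize |k| / (2 * L.P) = n at a1 a4
    generalize |k| % (2 * L.P) = r at a1 a2 a3
    have a5 : 0 < (2 * n + 1) * (U.P : ℤ) := by positivity
    rcases le_total 0 k with b | b
    · rw [abs_of_nonneg b] at a1 ⊢
      exact ⟨-(2 * n + 1), (odd_two_mul_add_one n).neg, lt_abs.2 (Or.inl (by linarith)),
        abs_le.2 ⟨by linarith, by linarith⟩⟩
    · rw [abs_of_nonpos b] at a1 ⊢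
      exact ⟨2 * n + 1, odd_two_mul_add_one n, lt_abs.2 (Or.inr (by linarith)),
        abs_le.2 ⟨by linarith, by linarith⟩⟩
  have z : h.F (k - 2 * c * U.P) y = 0 := by_contra fun e => (hm _ e).not_gt c2
  have e1 := LinearMap.congr_fun (t.fold (c * U.P - k) c c1) y
  rw [LinearMap.comp_apply, LinearMap.comp_apply, sub_sub_cancel,
    show -c * U.P - (c * U.P - k) = k - 2 * c * U.P by ring, z, map_zero,
    show c * U.P - k - c * M.P = -k - c * L.P by rw [hP]; ring] at e1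
  have e2 := t.cmp (-k) c (Fam.ch_neg.2 ch) c1
  rw [neg_neg] at e2
  have ch' : Ch L M (-k - c * L.P) := by
    have := Int.not_even_iff_odd.2 c1
    simp only [Ch, hP, parity_simps, even_neg] at ch ⊢
    tauto
  exact hk (F_inj t.nf hf ch' (by omega) (pure.symm ▸ Submodule.mem_top)
    (fun s x hs => h.π_F_ne k (e2 ▸ hs) x y) e1)

/-- DOWN -/
theorem down : DownStmt := by
  intro L M U f g h t h0 DL hf hd
  funext s
  refine (hd s).antisymm (not_lt.1 fun hl => e_d_ne s ?_)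
  have h1 : f.tot (L.e s (L.d s)) = 0 := by
    refine (Submodule.mem_bot K).1 (f.tot_mem fun κ => (Submodule.mem_bot K).2 ?_)
    by_cases b : Ch L M κ
    · by_cases e : s = f.s κ
      · subst e
        rw [t.nf.F_e b, e_eq_zero (by linarith [hf.le b])]
      · exact f.F_e_ne κ e _
    · rw [t.nf.par κ b]; rfl
  obtain ⟨u, hu⟩ := (t.ex3 _).1 h1
  rw [← hu, h0]; rfl

/-- UP -/
theorem up : UpStmt := by
  intro L M U f g h t pure DU hf hg hd
  have pL := L.pos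
  have pU := U.pos
  have hP := t.hP
  have cU := t.ng.cg_t hg cg_d
  funext s
  refine (hd s).antisymm' (not_lt.1 fun hl => ?_)
  obtain ⟨φ, hφ⟩ := mat_surj t.ng.toLat (by omega) (Pi.single s 1)
  rw [mulVecLin_apply] at hφ
  have h1 := tot_tv (k := 0) t.ng hg φ
  rw [hφ, tv_single, e_eq_zero (by simpa using hl), smul_zero, sub_zero] at h1
  obtain ⟨x, hx⟩ := (t.ex1 _).1 (T_low hd (g.tot_mem_T (tv_mem_T φ)) h1)
  have hx' : x ∈ L.T := pure.symm ▸ Submodule.mem_top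
  obtain ⟨χ, hχ⟩ := (dec_T 0).lead cg_d le_rfl hx' (desc1 t.nf hf (by omega) cg_d (dec_T _)
    (fun j _ => ne_d j) hx' (hx ▸ tv_mem_low φ))
  have h2 := tot_tv (k := 0) t.nf hf χ
  rw [← sub_eq_zero.1 (T_low (fun _ => le_rfl) (sub_mem hx' (tv_mem_T χ)) hχ), hx, ← map_sub] at h2
  have h3 := mat_mat t hf hg cU χ
  rw [← sub_eq_zero.1 ((ne_d 0).eq h2), hφ] at h3
  simpa using congrFun h3 s

section tow
variable {L M U : Ob} {f : Fam L M} {g : Fam M U} {h : Fam U L}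

theorem tow1 (t : Tri f g h) (hf : f.Sharp L.d M.d) {y : L.H} (hy : y ∈ L.T) (h0 : f.tot y = 0) :
    y = 0 :=
  T_low (fun _ => le_rfl) hy (desc1 t.nf hf (by have := t.hP; have := U.pos; omega) cg_d (dec_T _)
    (fun j _ => ne_d j) hy (h0 ▸ zero_mem _))

theorem tow2 (t : Tri f g h) (hf : f.Sharp L.d M.d) (hg : g.Sharp M.d U.d) {y : M.H} (hy : y ∈ M.T)
    (h0 : g.tot y = 0) : ∃ x ∈ L.T, f.tot x = y := by
  obtain ⟨x, hx, e⟩ := desc2 (k := 0) t hf hg cg_d cg_d le_rfl (dec_T _) (fun j _ => ne_d j) hy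
    (h0 ▸ zero_mem _)
  exact ⟨x, hx, (sub_eq_zero.1 (T_low (fun _ => le_rfl) (sub_mem hy (f.tot_mem_T hx)) e)).symm⟩

theorem tow3 (t : Tri f g h) (hg : g.Sharp M.d U.d) {z : U.H} (hz : z ∈ U.T) :
    ∃ y ∈ M.T, g.tot y = z := by
  obtain ⟨x, hx, e⟩ := desc3 (k := 0) t.ng hg (by have := t.hP; have := L.pos; omega) cg_d le_rfl
    (dec_T _) hz
  exact ⟨x, hx, (sub_eq_zero.1 (T_low (fun _ => le_rfl) (sub_mem hz (g.tot_mem_T hx)) e)).symm⟩

end tow

theorem rbij_of {A B : Ob} (f : Fam A B) (h1 : ∀ y, f.tot y ∈ B.T → y ∈ A.T)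
    (h2 : ∀ z, ∃ y, z - f.tot y ∈ B.T) : RBij f.tot := by
  refine f.rbij_iff.2 ⟨(injective_iff_map_eq_zero _).2 fun x hx => ?_, fun x => ?_⟩
  · obtain ⟨y, rfl⟩ := A.T.mkQ_surjective x
    exact (Submodule.Quotient.mk_eq_zero _).2 (h1 y ((Submodule.Quotient.mk_eq_zero _).1 hx))
  · obtain ⟨z, rfl⟩ := B.T.mkQ_surjective x
    obtain ⟨y, hy⟩ := h2 z
    exact ⟨A.T.mkQ y, ((Submodule.Quotient.eq _).2 hy).symm⟩

/-- RED -/
theorem red : RedStmt := by
  intro L M U f g h t hf hg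
  refine ⟨fun pure => rbij_of f (fun y hy => ?_) fun z => ?_,
    fun pure => rbij_of g (fun y hy => ?_) fun z => ?_,
    fun pure => rbij_of h (fun y hy => ?_) fun z => ?_⟩
  · obtain ⟨x, hx, e⟩ := tow2 t hf hg hy (t.ex1.apply_apply_eq_zero y)
    obtain ⟨u, hu⟩ := (t.ex3 (y - x)).1 (by rw [map_sub, e, sub_self])
    rw [t.ph.tot_T (pure.symm ▸ Submodule.mem_top)] at hu
    exact sub_eq_zero.1 hu.symm ▸ hx
  · obtain ⟨y, hy, e⟩ := tow3 t hg (z := g.tot z) (pure.symm ▸ Submodule.mem_top)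
    obtain ⟨x, hx⟩ := (t.ex1 (z - y)).1 (by rw [map_sub, e, sub_self])
    exact ⟨x, by rwa [hx, sub_sub_cancel]⟩
  · obtain ⟨x, hx, e⟩ := tow3 t hg hy
    obtain ⟨u, hu⟩ := (t.ex1 (y - x)).1 (by rw [map_sub, e, sub_self])
    have := add_mem (f.tot_mem_T (y := u) (pure.symm ▸ Submodule.mem_top)) hx
    rwa [hu, sub_add_cancel] at this
  · obtain ⟨y, hy⟩ := (t.ex2 z).1
      (tow1 t hf (pure.symm ▸ Submodule.mem_top) (t.ex3.apply_apply_eq_zero z))
    exact ⟨y, by rw [hy, sub_self]; exact zero_mem _⟩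
  · obtain ⟨x, rfl⟩ := (t.ex2 y).1 (tow1 t hf hy (t.ex3.apply_apply_eq_zero y))
    exact g.tot_mem_T (pure.symm ▸ Submodule.mem_top)
  · obtain ⟨x, hx, e⟩ := tow2 t hf hg (y := f.tot z) (pure.symm ▸ Submodule.mem_top)
      (t.ex1.apply_apply_eq_zero z)
    obtain ⟨u, hu⟩ := (t.ex3 (z - x)).1 (by rw [map_sub, e, sub_self])
    exact ⟨u, by rwa [hu, sub_sub_cancel]⟩

end Hat23
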