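import Crest.Agent.X212.Bor5.Api

/-! The sharp part of a handle: a matrix over the field with two elements. -/

set_option autoImplicit false

noncomputable section

namespace Hat23

open Crest.Agent.X212 Bor5 Module Function Matrix
open Fam (Ch)

/-- the sharp classes -/
def W (n m : ℤ) : Finset ℤ := (Finset.Ioo (-n) n).filter fun κ => Even (κ + m)

theorem mem_W {n m κ : ℤ} : κ ∈ W n m ↔ |κ| < n ∧ Even (κ + m) := by
  rw [W, Finset.mem_filter, Finset.mem_Ioo, abs_lt]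

theorem comb {A B : ℕ} (hA : 0 < A) (hAB : A < B) (cop : Nat.Coprime A B) {m : ℤ}
    (h1 : Even (1 - A - B + m)) (σ : ℤ → ZMod A) (τ : ℤ → ZMod B)
    (hs : ∀ κ κ', Even (κ + m) → Even (κ' + m) → (σ κ = σ κ' ↔ κ ≡ κ' [ZMOD 2 * A]))
    (ht : ∀ κ κ', Even (κ + m) → Even (κ' + m) → (τ κ = τ κ' ↔ κ ≡ κ' [ZMOD 2 * B]))
    (φ : ZMod A → K) (h : ∀ t, ∑ κ ∈ W (A + B) m, (if τ κ = t then φ (σ κ) else 0) = 0)
    (κ : ℤ) (hκ : Even (κ + m)) : φ (σ κ) = 0 := by
  have ev : ∀ κ i : ℤ, Even (κ + m) → Even (κ + 2 * i + m) := fun κ i h => by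
    rw [add_right_comm]; exact h.add (even_two_mul i)
  have c1 : Even ((A : ℤ) - B + 1 + m) := by
    have := ev _ A h1
    rwa [show 1 - (A : ℤ) - B + 2 * A = A - B + 1 by ring] at this
  have z : φ (σ (A - B + 1)) = 0 := by
    have := h (τ (A - B + 1))
    rwa [Finset.sum_eq_single_of_mem ((A : ℤ) - B + 1) (mem_W.2 ⟨abs_lt.2 ⟨by omega, by omega⟩, c1⟩)
      fun κ' hκ' hn => if_neg fun e => ?_, if_pos rfl] at this
    obtain ⟨h2, h3⟩ := mem_W.1 hκ'
    obtain ⟨c, hc⟩ := ((ht _ _ h3 c1).1 e).dvd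
    obtain ⟨u, hu⟩ := h3
    obtain ⟨v, hv⟩ := c1
    rw [abs_lt] at h2
    have : c = 0 := by
      by_contra h0
      rcases lt_or_gt_of_ne h0 with h4 | h4
      · have : 2 * (B : ℤ) * c ≤ 2 * B * (-1) := by gcongr; omega
        omega
      · have : 2 * (B : ℤ) * 1 ≤ 2 * B * c := by gcongr; omega
        omega
    subst this
    omega
  have pr : ∀ κ : ℤ, Even (κ + m) → -(A + B : ℤ) < κ → κ < A - B → φ (σ (κ + 2 * B)) = φ (σ κ) := by
    intro κ hκ l1 l2
    have := h (τ κ)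
    rw [Finset.sum_eq_add_of_mem κ (κ + 2 * B) (mem_W.2 ⟨abs_lt.2 ⟨by omega, by omega⟩, hκ⟩)
      (mem_W.2 ⟨abs_lt.2 ⟨by omega, by omega⟩, ev _ _ hκ⟩) (by omega)
      fun κ' hκ' hn => if_neg fun e => ?_, if_pos rfl,
      if_pos ((ht _ _ (ev _ _ hκ) hκ).2 (by simp [Int.ModEq]))] at this
    · rw [eq_neg_of_add_eq_zero_right this]
      exact ZMod.neg_eq_self_mod_two _
    obtain ⟨h2, h3⟩ := mem_W.1 hκ'
    obtain ⟨c, hc⟩ := ((ht _ _ hκ h3).1 e.symm).dvd
    rw [abs_lt] at h2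
    rcases lt_trichotomy c 0 with h4 | h4 | h4
    · have : 2 * (B : ℤ) * c ≤ 2 * B * (-1) := by gcongr; omega
      omega
    · subst h4; omega
    · rcases eq_or_lt_of_le (show 1 ≤ c from h4) with h5 | h5
      · subst h5; omega
      · have : 2 * (B : ℤ) * 2 ≤ 2 * B * c := by gcongr; omega
        omega
  have st : ∀ κ : ℤ, Even (κ + m) → φ (σ (κ + 2 * B)) = φ (σ κ) := by
    intro κ hκ
    have hA' : (0 : ℤ) < 2 * A := by omega
    have a1 := Int.emod_add_mul_ediv (κ - (1 - A - B)) (2 * A)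
    have a2 := Int.emod_nonneg (κ - (1 - A - B)) hA'.ne'
    have a3 := Int.emod_lt_of_pos (κ - (1 - A - B)) hA'
    generalize (κ - (1 - A - B)) / (2 * A) = c at a1
    generalize (κ - (1 - A - B)) % (2 * A) = r at a1 a2 a3
    have e : κ + 2 * (-(A * c)) = r + (1 - A - B) := by linarith
    have c2 := ev _ (-(A * c)) hκ
    have l : κ + 2 * (-(A * c)) < A - B := by
      obtain ⟨u, hu⟩ := c2
      obtain ⟨v, hv⟩ := h1
      omega
    have := pr _ c2 (by omega) l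
    rwa [(hs _ (κ + 2 * B) (ev _ _ c2) (ev _ _ hκ)).2 (Int.modEq_iff_dvd.2 ⟨c, by ring⟩),
      (hs _ κ c2 hκ).2 (Int.modEq_iff_dvd.2 ⟨c, by ring⟩)] at this
  have it : ∀ n : ℕ, φ (σ (A - B + 1 + 2 * (B * n))) = 0 := by
    intro n
    induction n with
    | zero => simpa using z
    | succ n ih =>
      rw [← ih, ← st _ (ev _ (B * n) c1)]
      congr 2; push_cast; ring
  obtain ⟨u, v, huv⟩ := Nat.isCoprime_iff_coprime.2 cop
  obtain ⟨i, hi⟩ : ∃ i, κ = A - B + 1 + 2 * i := by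
    obtain ⟨a, ha⟩ := hκ
    obtain ⟨b, hb⟩ := c1
    exact ⟨a - b, by omega⟩
  have a1 := Int.emod_add_mul_ediv (v * i) A
  have a2 := Int.emod_nonneg (v * i) (show (A : ℤ) ≠ 0 by omega)
  rw [← it (v * i % A).toNat, Int.toNat_of_nonneg a2]
  congr 1
  refine (hs _ _ hκ (ev _ _ c1)).2 (Int.modEq_iff_dvd.2 ⟨-(u * i) - B * (v * i / A), ?_⟩)
  rw [hi]
  linear_combination (2 * (B : ℤ)) * a1 + (2 * i) * huv

variable {A B : Ob}

/-- the sharp classes of a family -/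
abbrev Wf (A B : Ob) : Finset ℤ := W (A.P + B.P) (A.P * B.P)

/-- the matrix of the sharp part -/
def mat (f : Fam A B) : Matrix (ZMod B.P) (ZMod A.P) K :=
  fun t s => ∑ κ ∈ Wf A B, if f.t κ = t ∧ f.s κ = s then 1 else 0

theorem mat_vec (f : Fam A B) (φ : ZMod A.P → K) (t : ZMod B.P) :
    (mat f *ᵥ φ) t = ∑ κ ∈ Wf A B, if f.t κ = t then φ (f.s κ) else 0 := by
  simp only [mulVec, dotProduct, mat, Finset.sum_mul]
  rw [Finset.sum_comm]
  refine Finset.sum_congr rfl fun κ _ => ?_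
  by_cases h : f.t κ = t <;> simp [h]

theorem mat_vec' (f : Fam A B) (ψ : ZMod B.P → K) (s : ZMod A.P) :
    ((mat f)ᵀ *ᵥ ψ) s = ∑ κ ∈ Wf A B, if f.s κ = s then ψ (f.t κ) else 0 := by
  simp only [mulVec, dotProduct, mat, transpose_apply, Finset.sum_mul]
  rw [Finset.sum_comm]
  refine Finset.sum_congr rfl fun κ _ => ?_
  by_cases h : f.s κ = s <;> simp [h]

theorem mat_inj {f : Fam A B} (h : f.Lat) (hP : A.P < B.P) (φ : ZMod A.P → K) (h0 : mat f *ᵥ φ = 0) :
    φ = 0 := by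
  funext s
  obtain ⟨κ, h1, -, rfl⟩ := h.sharp_s s
  exact comb A.pos hP h.cop h.ch f.s f.t h.hs h.ht φ
    (fun t => (mat_vec f φ t).symm.trans (congrFun h0 t)) κ h1

theorem mat_surj {f : Fam A B} (h : f.Lat) (hP : B.P < A.P) : Surjective (mat f).mulVecLin := by
  have h1 : Injective (mat f)ᵀ.mulVecLin := by
    rw [injective_iff_map_eq_zero]
    intro ψ h0
    funext t
    obtain ⟨κ, h1, -, rfl⟩ := h.sharp_t t
    refine comb B.pos hP h.cop.symm (m := A.P * B.P) (by rw [sub_right_comm]; exact h.ch) f.t f.s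
      h.ht h.hs ψ (fun s => ?_) κ h1
    rw [add_comm]
    exact (mat_vec' f ψ s).symm.trans (congrFun h0 s)
  have h2 : (mat f).rank = Fintype.card (ZMod B.P) := by
    rw [← rank_transpose, rank, LinearMap.finrank_range_of_inj h1, finrank_fintype_fun_eq_card]
  rw [← LinearMap.range_eq_top]
  exact Submodule.eq_top_of_finrank_eq (by rw [finrank_fintype_fun_eq_card]; exact h2)

theorem mat_exact {L M U : Ob} {f : Fam L M} {g : Fam M U} (hf : f.Lat) (hg : g.Lat)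
    (hP : M.P = L.P + U.P) (h0 : ∀ χ, mat g *ᵥ (mat f *ᵥ χ) = 0) (φ : ZMod M.P → K)
    (hφ : mat g *ᵥ φ = 0) : ∃ χ, mat f *ᵥ χ = φ := by
  have := L.pos
  have := U.pos
  have h1 : Injective (mat f).mulVecLin :=
    (injective_iff_map_eq_zero _).2 (mat_inj hf (by omega))
  have h2 := LinearMap.finrank_range_add_finrank_ker (mat g).mulVecLin
  rw [LinearMap.range_eq_top.2 (mat_surj hg (by omega)), finrank_top] at h2
  have h3 : LinearMap.range (mat f).mulVecLin = LinearMap.ker (mat g).mulVecLin := by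
    refine Submodule.eq_of_le_of_finrank_le (by rintro _ ⟨χ, rfl⟩; exact h0 χ) ?_
    rw [LinearMap.finrank_range_of_inj h1]
    simp only [finrank_fintype_fun_eq_card, ZMod.card] at h2 ⊢
    omega
  have : φ ∈ LinearMap.range (mat f).mulVecLin := h3 ▸ hφ
  exact this

end Hat23
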