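import Crest.Agent.X212.Hat23.Comb

/-! Levels: the filtration by `low`, leading terms, descent. -/

set_option autoImplicit false

noncomputable section

namespace Hat23

open Crest.Agent.X212 Bor5 Module Function Matrix Ob
open Fam (Ch)

/-- the tower vector of level `k` with coefficients `φ` -/
def tv (X : Ob) (D : ZMod X.P → ℚ) (k : ℕ) : (ZMod X.P → K) →ₗ[K] X.H where
  toFun φ := ∑ s, φ s • X.e s (D s + 2 * k)
  map_add' φ ψ := by simp [add_smul, Finset.sum_add_distrib]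
  map_smul' c φ := by simp [Finset.smul_sum, mul_smul]

variable {X A B : Ob} {D : ZMod X.P → ℚ} {k : ℕ}

theorem tv_apply (φ : ZMod X.P → K) : tv X D k φ = ∑ s, φ s • X.e s (D s + 2 * k) := rfl

theorem tv_mem_T (φ : ZMod X.P → K) : tv X D k φ ∈ X.T :=
  Submodule.sum_mem _ fun _ _ => Submodule.smul_mem _ _ (e_mem_T _ _)

theorem tv_mem_low (φ : ZMod X.P → K) : tv X D k φ ∈ X.low D (k + 1) :=
  Submodule.sum_mem _ fun s _ => Submodule.smul_mem _ _
    (gr_le_low (by push_cast; linarith) (X.e_mem s _))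

theorem π_tv (φ : ZMod X.P → K) (s : ZMod X.P) (x : ℚ) :
    X.π s x (tv X D k φ) = if x = D s + 2 * k then φ s • X.e s x else 0 := by
  rw [tv_apply, map_sum, Finset.sum_eq_single s (fun c _ hc => by
    rw [map_smul, π_of_ne (X.e_mem _ _) fun h => hc h.1, smul_zero]) (by simp), map_smul]
  split_ifs with h
  · rw [h, π_of_mem (X.e_mem _ _)]
  · rw [π_of_ne (X.e_mem _ _) fun e => h e.2.symm, smul_zero]

theorem tv_single (s : ZMod X.P) (c : K) : tv X D k (Pi.single s c) = c • X.e s (D s + 2 * k) := by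
  rw [tv_apply, Finset.sum_eq_single s (fun t _ ht => by simp [ht]) (by simp), Pi.single_eq_same]

/-- all towers reach the level `k` -/
def Ne (X : Ob) (D : ZMod X.P → ℚ) (k : ℕ) : Prop := ∀ s, X.e s (D s + 2 * k) ≠ 0

theorem Ne.eq (h : Ne X D k) {φ : ZMod X.P → K} (hφ : tv X D k φ ∈ X.low D k) : φ = 0 := by
  funext s
  have := mem_low.1 hφ s _ le_rfl
  rw [π_tv, if_pos rfl, smul_eq_zero] at this
  exact this.resolve_right (h s)

theorem ne_d (k : ℕ) : Ne X X.d k := fun s => e_add_ne s k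

theorem cg_d : X.Cg X.d := fun _ => ⟨0, by simp⟩

theorem exists_ne (h : X.Cg D) : ∃ k : ℕ, ∀ j, k ≤ j → Ne X D j := by
  choose c hc using h
  obtain ⟨b, hb⟩ := (Set.finite_range fun s => (c s).natAbs).bddAbove
  refine ⟨b, fun j hj s => (X.e_ne _ _).2 ⟨(c s + j).toNat, ?_⟩⟩
  have h1 := hb ⟨s, rfl⟩
  have h2 : (((c s + j).toNat : ℤ) : ℚ) = ((c s + j : ℤ) : ℚ) := by
    rw [Int.toNat_of_nonneg (by simp only at h1; omega)]
  rw [hc s]
  push_cast at h2
  rw [h2]; ring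

/-- above the level `k` the elements of `V` lie in the towers -/
def Dec (X : Ob) (D : ZMod X.P → ℚ) (V : Submodule K X.H) (k : ℕ) : Prop :=
  ∀ y ∈ V, ∀ s x, D s + 2 * k ≤ x → X.π s x y ∈ K ∙ X.e s x

theorem dec_T (k : ℕ) : Dec X D X.T k := fun _ hy s x _ => mem_T.1 hy s x

theorem exists_dec (D : ZMod X.P → ℚ) : ∃ k : ℕ, ∀ j, k ≤ j → Dec X D ⊤ j := by
  obtain ⟨N, hN⟩ := X.exists_top
  obtain ⟨b, hb⟩ := (Set.finite_range D).bddBelow
  obtain ⟨k, hk⟩ := exists_nat_ge ((N - b) / 2)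
  refine ⟨k, fun j hj y _ s x hx => hN s x ?_ (π_mem _ _ _)⟩
  have : (k : ℚ) ≤ j := Nat.cast_le.2 hj
  linarith [hb ⟨s, rfl⟩]

theorem Dec.lead {V : Submodule K X.H} (h : Dec X D V k) (hc : X.Cg D) {j : ℕ} (hj : k ≤ j) {y : X.H}
    (hy : y ∈ V) (hl : y ∈ X.low D (j + 1)) : ∃ φ, y - tv X D j φ ∈ X.low D j := by
  have hj' : (k : ℚ) ≤ j := Nat.cast_le.2 hj
  have h1 : ∀ s, ∃ c : K, c • X.e s (D s + 2 * j) = X.π s (D s + 2 * j) y := fun s =>
    Submodule.mem_span_singleton.1 (h y hy s _ (by linarith))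
  choose φ hφ using h1
  refine ⟨φ, mem_low.2 fun s x hx => ?_⟩
  rw [map_sub, π_tv]
  split_ifs with e
  · rw [e, hφ, sub_self]
  rw [sub_zero]
  rcases le_or_gt (D s + 2 * (j + 1 : ℕ)) x with a | a
  · exact mem_low.1 hl s x a
  rcases mem_span_iff.1 (h y hy s x (by linarith)) with b | b
  · exact b
  rw [b]
  by_contra hn
  obtain ⟨n, rfl⟩ := (X.e_ne s x).1 hn
  obtain ⟨c, hc⟩ := hc s
  rw [hc] at hx a e
  push_cast at a
  have a1 : c + j ≤ n := by exact_mod_cast (by linarith : (c : ℚ) + j ≤ n)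
  have a2 : (n : ℤ) < c + j + 1 := by exact_mod_cast (by linarith : (n : ℚ) < c + j + 1)
  have a3 : (n : ℚ) = c + j := by exact_mod_cast (by omega : (n : ℤ) = c + j)
  exact e (by rw [a3]; ring)

theorem T_low (hD : ∀ s, D s ≤ X.d s) {y : X.H} (hy : y ∈ X.T) (hl : y ∈ X.low D 0) : y = 0 := by
  refine eq_zero_of_π fun s x => ?_
  rcases le_or_gt (D s) x with a | a
  · exact mem_low.1 hl s x (by simpa using a)
  · rcases mem_span_iff.1 (mem_T.1 hy s x) with b | b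
    · exact b
    · rw [b, e_eq_zero (a.trans_le (hD s))]

theorem fd_low (D : ZMod X.P → ℚ) (k : ℕ) : FiniteDimensional K (X.low D k) := by
  obtain ⟨b, hb⟩ := (Set.finite_range fun s => D s - X.d s).bddAbove
  obtain ⟨n, hn⟩ := exists_nat_ge (b / 2 + k)
  let I : Set (ZMod X.P × ℚ) := {i | ¬X.gr i.1 i.2 ≤ K ∙ X.e i.1 i.2} ∪
    (fun a : ZMod X.P × ℕ => (a.1, X.d a.1 + 2 * a.2)) '' (Set.univ ×ˢ Set.Iio n)
  have hI : I.Finite := X.fin.union ((Set.finite_univ.prod (Set.finite_Iio n)).image _)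
  have := hI.to_subtype
  have := X.fd
  refine Submodule.finiteDimensional_of_le (S₂ := ⨆ i : I, X.gr i.1.1 i.1.2) ?_
  refine iSup_le fun s => iSup_le fun x => iSup_le fun hx => ?_
  by_cases h : (s, x) ∈ I
  · exact le_iSup (fun i : I => X.gr i.1.1 i.1.2) ⟨_, h⟩
  · have h1 : X.gr s x ≤ K ∙ X.e s x := by_contra fun e => h (Or.inl e)
    have h2 : X.e s x = 0 := by
      by_contra e
      obtain ⟨m, rfl⟩ := (X.e_ne s x).1 e
      refine h (Or.inr ⟨(s, m), ⟨trivial, ?_⟩, rfl⟩)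
      have := hb ⟨s, rfl⟩
      simp only at this
      exact_mod_cast (by linarith : (m : ℚ) < n)
    rw [h2, Submodule.span_zero_singleton] at h1
    exact h1.trans bot_le

variable {f : Fam A B} {DA : ZMod A.P → ℚ} {DB : ZMod B.P → ℚ}

theorem F_low (h : f.Neg) (hs : f.Sharp DA DB) (κ : ℤ) {y : A.H} (hy : y ∈ A.low DA k) :
    f.F κ y ∈ B.low DB k := by
  by_cases hκ : Ch A B κ
  · refine mem_low.2 fun t x hx => ?_
    by_cases e : t = f.t κ
    · subst e
      rw [← sub_add_cancel x (f.dg κ), f.π_F, mem_low.1 hy _ _ (by linarith [hs.le hκ]), map_zero]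
    · exact f.π_F_ne κ e x y
  · rw [h.par κ hκ]; exact zero_mem _

theorem tot_low (h : f.Neg) (hs : f.Sharp DA DB) {y : A.H} (hy : y ∈ A.low DA k) :
    f.tot y ∈ B.low DB k := f.tot_mem fun κ => F_low h hs κ hy

theorem F_tv (h : f.Neg) {κ : ℤ} (hκ : Ch A B κ) (φ : ZMod A.P → K) :
    f.F κ (tv A DA k φ) = φ (f.s κ) • B.e (f.t κ) (DA (f.s κ) + 2 * k + f.dg κ) := by
  rw [tv_apply, map_sum, Finset.sum_eq_single (f.s κ) (fun c _ hc => by
    rw [map_smul, f.F_e_ne κ hc, smul_zero]) (by simp), map_smul, h.F_e hκ]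

/-- the leading term of the total map -/
theorem tot_tv (h : f.Neg) (hs : f.Sharp DA DB) (φ : ZMod A.P → K) :
    f.tot (tv A DA k φ) - tv B DB k (mat f *ᵥ φ) ∈ B.low DB k := by
  classical
  have h1 : tv B DB k (mat f *ᵥ φ) = ∑ κ ∈ Wf A B, f.F κ (tv A DA k φ) := by
    have : mat f *ᵥ φ = ∑ κ ∈ Wf A B, Pi.single (f.t κ) (φ (f.s κ)) := by
      funext t
      rw [mat_vec, Finset.sum_apply]
      exact Finset.sum_congr rfl fun κ _ => by simp [Pi.single_apply, eq_comm]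
    rw [this, map_sum]
    refine Finset.sum_congr rfl fun κ hκ => ?_
    obtain ⟨a, b⟩ := mem_W.1 hκ
    rw [tv_single, F_tv h b, hs.eq b a, add_right_comm]
  rw [h1, Fam.tot_apply, finsum_eq_sum_of_support_subset
    (s := Wf A B ∪ (f.fin (tv A DA k φ)).toFinset) _ (by simp),
    ← Finset.sum_sdiff Finset.subset_union_left, add_sub_cancel_right]
  refine Submodule.sum_mem _ fun κ hκ => ?_
  by_cases b : Ch A B κ
  · have a : ¬|κ| < A.P + B.P := fun a => (Finset.mem_sdiff.1 hκ).2 (mem_W.2 ⟨a, b⟩)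
    rw [F_tv h b]
    exact Submodule.smul_mem _ _ (gr_le_low (by linarith [hs.le_of_not b a]) (B.e_mem _ _))
  · rw [h.par κ b]; exact zero_mem _

theorem lead_zero (h : f.Neg) (hs : f.Sharp DA DB) (hn : Ne B DB k) {y : A.H} {φ : ZMod A.P → K}
    (h1 : y - tv A DA k φ ∈ A.low DA k) (h2 : f.tot y ∈ B.low DB k) : mat f *ᵥ φ = 0 := by
  refine hn.eq ?_
  have := sub_mem (sub_mem h2 (tot_low h hs h1)) (tot_tv h hs φ)
  rwa [map_sub, sub_sub_cancel, sub_sub_cancel] at this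

theorem exists_low_ge (D : ZMod X.P → ℚ) (k : ℕ) (y : X.H) : ∃ n, y ∈ X.low D (k + n) :=
  let ⟨n, h⟩ := exists_low D y
  ⟨n, low_mono (Nat.le_add_left _ _) h⟩

/-- descent along an injective leading term -/
theorem desc1 (h : f.Neg) (hs : f.Sharp DA DB) (hP : A.P < B.P) (hc : A.Cg DA)
    {V : Submodule K A.H} (hd : Dec A DA V k) (hn : ∀ j, k ≤ j → Ne B DB j) {y : A.H} (hy : y ∈ V)
    (h1 : f.tot y ∈ B.low DB k) : y ∈ A.low DA k := by
  obtain ⟨n, hl⟩ := exists_low_ge DA k y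
  induction n with
  | zero => exact hl
  | succ n ih =>
    obtain ⟨φ, hφ⟩ := hd.lead hc (Nat.le_add_right k n) hy hl
    have := mat_inj h.toLat hP φ (lead_zero h hs (hn _ (Nat.le_add_right k n)) hφ
      (low_mono (Nat.le_add_right k n) h1))
    rw [this, map_zero, sub_zero] at hφ
    exact ih hφ

/-- descent along a surjective leading term -/
theorem desc3 (h : f.Neg) (hs : f.Sharp DA DB) (hP : B.P < A.P) (hc : B.Cg DB)
    {V : Submodule K B.H} (hT : B.T ≤ V) (hd : Dec B DB V k) {z : B.H} (hz : z ∈ V) :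
    ∃ y ∈ A.T, z - f.tot y ∈ B.low DB k := by
  obtain ⟨n, hl⟩ := exists_low_ge DB k z
  induction n generalizing z with
  | zero => exact ⟨0, zero_mem _, by simpa using hl⟩
  | succ n ih =>
    obtain ⟨ψ, hψ⟩ := hd.lead hc (Nat.le_add_right k n) hz hl
    obtain ⟨φ, rfl⟩ := mat_surj h.toLat hP ψ
    obtain ⟨y, hy, h2⟩ := ih (z := z - f.tot (tv A DA (k + n) φ))
      (sub_mem hz (hT (f.tot_mem_T (tv_mem_T φ)))) (by
        have := sub_mem hψ (tot_tv h hs φ)
        rwa [mulVecLin_apply, sub_sub_sub_cancel_right] at this)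
    exact ⟨tv A DA (k + n) φ + y, add_mem (tv_mem_T φ) hy, by rwa [map_add, ← sub_sub]⟩

variable {L M U : Ob} {f : Fam L M} {g : Fam M U} {h : Fam U L} {DL : ZMod L.P → ℚ}
  {DM : ZMod M.P → ℚ} {DU : ZMod U.P → ℚ}

theorem mat_mat (t : Tri f g h) (hf : f.Sharp DL DM) (hg : g.Sharp DM DU) (hc : U.Cg DU)
    (χ : ZMod L.P → K) : mat g *ᵥ (mat f *ᵥ χ) = 0 := by
  obtain ⟨k, hk⟩ := exists_ne hc
  refine lead_zero t.ng hg (hk k le_rfl) (tot_tv t.nf hf χ) ?_
  rw [t.ex1.apply_apply_eq_zero]; exact zero_mem _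

/-- descent in the middle -/
theorem desc2 (t : Tri f g h) (hf : f.Sharp DL DM) (hg : g.Sharp DM DU) (hc : M.Cg DM)
    (hc' : U.Cg DU) {V : Submodule K M.H} (hT : M.T ≤ V) (hd : Dec M DM V k)
    (hn : ∀ j, k ≤ j → Ne U DU j) {y : M.H} (hy : y ∈ V) (h1 : g.tot y ∈ U.low DU k) :
    ∃ x ∈ L.T, y - f.tot x ∈ M.low DM k := by
  obtain ⟨n, hl⟩ := exists_low_ge DM k y
  induction n generalizing y with
  | zero => exact ⟨0, zero_mem _, by simpa using hl⟩
  | succ n ih =>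
    obtain ⟨φ, hφ⟩ := hd.lead hc (Nat.le_add_right k n) hy hl
    obtain ⟨χ, rfl⟩ := mat_exact t.nf.toLat t.ng.toLat t.hP (mat_mat t hf hg hc') φ
      (lead_zero t.ng hg (hn _ (Nat.le_add_right k n)) hφ (low_mono (Nat.le_add_right k n) h1))
    obtain ⟨x, hx, h2⟩ := ih (y := y - f.tot (tv L DL (k + n) χ))
      (sub_mem hy (hT (f.tot_mem_T (tv_mem_T χ))))
      (by rwa [map_sub, t.ex1.apply_apply_eq_zero, sub_zero]) (by
        have := sub_mem hφ (tot_tv t.nf hf χ)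
        rwa [sub_sub_sub_cancel_right] at this)
    exact ⟨tv L DL (k + n) χ + x, add_mem (tv_mem_T χ) hx, by rwa [map_add, ← sub_sub]⟩

end Hat23
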